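import Vale.Agent.Lib.P335.Defs

/-!
General facts on the switch matrix: entries are nonnegative, rows sum to at most one,
diagonal entries of powers, and a lower bound for the total variation distance.
-/

namespace Vale.Agent.Lib.P335

open Finset
open scoped Classical

variable {n : ℕ} {d : Fin n → ℕ}

theorem switchMatrix_nonneg (G G' : Omega n d) : 0 ≤ switchMatrix n d G G' := by
  unfold switchMatrix
  apply add_nonneg
  · split_ifs <;> norm_num
  · apply mul_nonneg
    · apply mul_nonneg (by norm_num)
      apply div_nonneg (by norm_num) (Nat.cast_nonneg _)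
    · apply Finset.sum_nonneg
      intro S _
      apply mul_nonneg
      · apply div_nonneg (by norm_num) (Nat.cast_nonneg _)
      · exact Nat.cast_nonneg _

theorem switchMatrix_pow_nonneg (t : ℕ) (G H : Omega n d) :
    0 ≤ (switchMatrix n d ^ t) G H := by
  induction t generalizing H with
  | zero =>
    rw [pow_zero, Matrix.one_apply]
    split_ifs <;> norm_num
  | succ t ih =>
    rw [pow_succ, Matrix.mul_apply]
    apply Finset.sum_nonneg
    intro K _
    exact mul_nonneg (ih K) (switchMatrix_nonneg K H)

theorem sum_card_filter_le (G : Omega n d) (S : Finset (Fin n)) :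
    ∑ H : Omega n d,
      (((matchingPairs S).filter (fun p => switch G.1 p.1 p.2 = H.1)).card : ℝ)
      ≤ ((matchingPairs S).card : ℝ) := by
  rw [← Nat.cast_sum]
  apply Nat.cast_le.mpr
  rw [← Finset.card_biUnion]
  · apply Finset.card_le_card
    intro p hp
    simp only [Finset.mem_biUnion, Finset.mem_filter] at hp
    obtain ⟨_, _, hp, _⟩ := hp
    exact hp
  · intro H _ H' _ hne
    rw [Function.onFun, Finset.disjoint_left]
    intro p hp hp'
    simp only [Finset.mem_filter] at hp hp'
    apply hne
    apply Subtype.ext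
    rw [← hp.2, ← hp'.2]

theorem switchMatrix_row_sum_le (G : Omega n d) :
    ∑ H : Omega n d, switchMatrix n d G H ≤ 1 := by
  unfold switchMatrix
  rw [Finset.sum_add_distrib, ← Finset.mul_sum, Finset.sum_comm]
  have h1 : ∑ H : Omega n d, (if G = H then (1 / 2 : ℝ) else 0) = 1 / 2 := by
    rw [Finset.sum_ite_eq]
    simp
  have h2 : ∑ S ∈ (univ : Finset (Fin n)).powersetCard 4, ∑ H : Omega n d,
      (1 / ((matchingPairs S).card : ℝ)) *
        (((matchingPairs S).filter (fun p => switch G.1 p.1 p.2 = H.1)).card : ℝ)
      ≤ (((univ : Finset (Fin n)).powersetCard 4).card : ℝ) := by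
    have : ∀ S ∈ (univ : Finset (Fin n)).powersetCard 4, ∑ H : Omega n d,
        (1 / ((matchingPairs S).card : ℝ)) *
          (((matchingPairs S).filter (fun p => switch G.1 p.1 p.2 = H.1)).card : ℝ)
        ≤ 1 := by
      intro S _
      rw [← Finset.mul_sum]
      by_cases hc : ((matchingPairs S).card : ℝ) = 0
      · rw [hc]; simp
      · have hpos : 0 < ((matchingPairs S).card : ℝ) :=
          lt_of_le_of_ne (Nat.cast_nonneg _) (Ne.symm hc)
        rw [one_div, inv_mul_le_iff₀ hpos, mul_one]
        exact sum_card_filter_le G S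
    calc _ ≤ ∑ S ∈ (univ : Finset (Fin n)).powersetCard 4, (1 : ℝ) := Finset.sum_le_sum this
      _ = _ := by simp
  rw [h1]
  have h3 : (1 / 2 : ℝ) * (1 / (((univ : Finset (Fin n)).powersetCard 4).card : ℝ)) *
      ∑ S ∈ (univ : Finset (Fin n)).powersetCard 4, ∑ H : Omega n d,
      (1 / ((matchingPairs S).card : ℝ)) *
        (((matchingPairs S).filter (fun p => switch G.1 p.1 p.2 = H.1)).card : ℝ)
      ≤ 1 / 2 := by
    by_cases hc : (((univ : Finset (Fin n)).powersetCard 4).card : ℝ) = 0
    · rw [hc]; simp
    · have hpos : 0 < (((univ : Finset (Fin n)).powersetCard 4).card : ℝ) :=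
        lt_of_le_of_ne (Nat.cast_nonneg _) (Ne.symm hc)
      rw [mul_assoc]
      have : (1 / (((univ : Finset (Fin n)).powersetCard 4).card : ℝ)) *
          ∑ S ∈ (univ : Finset (Fin n)).powersetCard 4, ∑ H : Omega n d,
          (1 / ((matchingPairs S).card : ℝ)) *
            (((matchingPairs S).filter (fun p => switch G.1 p.1 p.2 = H.1)).card : ℝ) ≤ 1 := by
        rw [one_div, inv_mul_le_iff₀ hpos, mul_one]
        exact h2
      linarith
  linarith

theorem switchMatrix_pow_row_sum_le (t : ℕ) (G : Omega n d) :
    ∑ H : Omega n d, (switchMatrix n d ^ t) G H ≤ 1 := by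
  induction t with
  | zero =>
    simp [Matrix.one_apply]
  | succ t ih =>
    have : ∑ H : Omega n d, (switchMatrix n d ^ (t + 1)) G H
        = ∑ K : Omega n d, (switchMatrix n d ^ t) G K * ∑ H : Omega n d, switchMatrix n d K H := by
      simp_rw [pow_succ, Matrix.mul_apply, Finset.mul_sum]
      rw [Finset.sum_comm]
    rw [this]
    calc _ ≤ ∑ K : Omega n d, (switchMatrix n d ^ t) G K * 1 := by
          apply Finset.sum_le_sum
          intro K _
          exact mul_le_mul_of_nonneg_left (switchMatrix_row_sum_le K)
            (switchMatrix_pow_nonneg t G K)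
      _ ≤ 1 := by simpa using ih

theorem switchMatrix_pow_diag_ge (t : ℕ) (G : Omega n d) :
    (switchMatrix n d G G) ^ t ≤ (switchMatrix n d ^ t) G G := by
  induction t with
  | zero => simp
  | succ t ih =>
    rw [pow_succ, pow_succ, Matrix.mul_apply]
    calc switchMatrix n d G G ^ t * switchMatrix n d G G
        ≤ (switchMatrix n d ^ t) G G * switchMatrix n d G G :=
          mul_le_mul_of_nonneg_right ih (switchMatrix_nonneg G G)
      _ ≤ _ := by
          apply Finset.single_le_sum (f := fun K => (switchMatrix n d ^ t) G K * switchMatrix n d K G)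
          · intro K _
            exact mul_nonneg (switchMatrix_pow_nonneg t G K) (switchMatrix_nonneg K G)
          · exact Finset.mem_univ G

/-- The total variation distance is at least the excess of the return probability
over the uniform mass. -/
theorem tvDist_ge (t : ℕ) (G : Omega n d) :
    (switchMatrix n d ^ t) G G - 1 / (Fintype.card (Omega n d) : ℝ) ≤ tvDist n d t G := by
  unfold tvDist
  set p : Omega n d → ℝ := fun H => (switchMatrix n d ^ t) G H with hp
  set u : ℝ := 1 / (Fintype.card (Omega n d) : ℝ) with hu
  have hN : (0 : ℝ) < (Fintype.card (Omega n d) : ℝ) := by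
    have : 0 < Fintype.card (Omega n d) := Fintype.card_pos_iff.mpr ⟨G⟩
    exact_mod_cast this
  have hsum : ∑ H : Omega n d, p H ≤ 1 := switchMatrix_pow_row_sum_le t G
  have hu1 : ∑ _H : Omega n d, u = 1 := by
    rw [Finset.sum_const, Finset.card_univ, nsmul_eq_mul, hu]
    field_simp
  have key : ∑ H : Omega n d, |p H - u| ≥ 2 * (p G - u) := by
    have h1 : ∑ H : Omega n d, |p H - u| =
        |p G - u| + ∑ H ∈ (univ : Finset (Omega n d)).erase G, |p H - u| :=
      (Finset.add_sum_erase _ (fun H => |p H - u|) (Finset.mem_univ G)).symm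
    have h2 : ∑ H ∈ (univ : Finset (Omega n d)).erase G, |p H - u|
        ≥ ∑ H ∈ (univ : Finset (Omega n d)).erase G, (u - p H) := by
      apply Finset.sum_le_sum
      intro H _
      rw [abs_sub_comm]
      exact le_abs_self _
    have h3 : ∑ H ∈ (univ : Finset (Omega n d)).erase G, (u - p H)
        = (∑ H : Omega n d, (u - p H)) - (u - p G) := by
      have := Finset.add_sum_erase _ (fun H => u - p H) (Finset.mem_univ G)
      linarith
    have h4 : ∑ H : Omega n d, (u - p H) = 1 - ∑ H : Omega n d, p H := by
      rw [Finset.sum_sub_distrib, hu1]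
    have h5 : p G - u ≤ |p G - u| := le_abs_self _
    linarith
  have : (switchMatrix n d ^ t) G G = p G := rfl
  rw [this]
  linarith

end Vale.Agent.Lib.P335
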