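import Vale.Agent.Lib.P335.Defs
import Vale.Agent.Lib.P335.helper26.BipDefs

/-!
Definitions for the bridge between split degree vectors of simple graphs and margin
matrices: the graph-side switch relation, the split condition, and the margins of the
bipartite system attached to a split degree vector.
-/

namespace Vale.Agent.Lib.P335.Bridge

open Finset
open scoped Classical
open Vale.Agent.Lib.P335

/-- Graph-side switch relation: `G'` is obtained from `G` by removing the two disjoint edges
`ab`, `ce` and inserting the two absent edges `ac`, `be`. -/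
def GSwitch {n : ℕ} (G G' : SimpleGraph (Fin n)) : Prop :=
  ∃ a b c e : Fin n, a ≠ b ∧ a ≠ c ∧ a ≠ e ∧ b ≠ c ∧ b ≠ e ∧ c ≠ e ∧
    G.Adj a b ∧ G.Adj c e ∧ ¬ G.Adj a c ∧ ¬ G.Adj b e ∧
    G' = SimpleGraph.fromEdgeSet ((G.edgeSet \ {s(a, b), s(c, e)}) ∪ {s(a, c), s(b, e)})

/-- The split condition for the vertex set `U`:
`∑_{u ∈ U} d_u = |U| (|U| - 1) + ∑_{w ∉ U} d_w`. -/
def SplitCond {n : ℕ} (d : Fin n → ℕ) (U : Finset (Fin n)) : Prop :=
  ∑ u ∈ U, d u = U.card * (U.card - 1) + ∑ w ∈ Uᶜ, d w

/-- `U` is a clique of `G` and the complement of `U` is an independent set of `G`. -/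
def IsSplitOn {n : ℕ} (G : SimpleGraph (Fin n)) (U : Finset (Fin n)) : Prop :=
  (∀ u ∈ U, ∀ u' ∈ U, u ≠ u' → G.Adj u u') ∧ (∀ w, w ∉ U → ∀ w', w' ∉ U → ¬ G.Adj w w')

/-- Row margins of the bipartite system attached to `(d, U)`: rows are the vertices of `U`. -/
noncomputable def rowM {n : ℕ} (d : Fin n → ℕ) (U : Finset (Fin n)) : Fin U.card → ℕ :=
  fun i => d (U.equivFin.symm i) - (U.card - 1)

/-- Column margins of the bipartite system attached to `(d, U)`: columns are the vertices
outside `U`. -/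
noncomputable def colM {n : ℕ} (d : Fin n → ℕ) (U : Finset (Fin n)) : Fin Uᶜ.card → ℕ :=
  fun j => d ((Uᶜ).equivFin.symm j)

end Vale.Agent.Lib.P335.Bridge
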