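import Mathlib

/-!
The switch Markov chain on the simple graphs with a prescribed degree vector,
its t-step distributions and their total variation distance to the uniform distribution.
-/

namespace Vale.Agent.Lib.P335

open Finset
open scoped Classical

/-- The set `Ω_d`: simple graphs on the vertex set `Fin n` whose degree at `v` is `d v`. -/
abbrev Omega (n : ℕ) (d : Fin n → ℕ) : Type :=
  {G : SimpleGraph (Fin n) // ∀ v, G.degree v = d v}

/-- The perfect matchings of the complete graph on the vertex set `S`,
each given by its set of edges: sets of non-loop pairs inside `S`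
such that every vertex of `S` lies on exactly one of them. -/
noncomputable def perfMatchings {n : ℕ} (S : Finset (Fin n)) :
    Finset (Finset (Sym2 (Fin n))) :=
  S.sym2.powerset.filter
    (fun F => (∀ e ∈ F, ¬ e.IsDiag) ∧ ∀ v ∈ S, ∃! e, e ∈ F ∧ v ∈ e)

/-- The ordered pairs `(F, F')` of distinct perfect matchings of the complete graph on `S`. -/
noncomputable def matchingPairs {n : ℕ} (S : Finset (Fin n)) :
    Finset (Finset (Sym2 (Fin n)) × Finset (Sym2 (Fin n))) :=
  (perfMatchings S ×ˢ perfMatchings S).filter (fun p => p.1 ≠ p.2)

/-- The switch `F → F'` attempted on `G`: if every edge of `F` is present in `G` and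
every edge of `F'` is absent from `G`, the edges of `F` are replaced by those of `F'`;
otherwise `G` is returned unchanged. -/
noncomputable def switch {n : ℕ} (G : SimpleGraph (Fin n))
    (F F' : Finset (Sym2 (Fin n))) : SimpleGraph (Fin n) :=
  if (∀ e ∈ F, e ∈ G.edgeSet) ∧ (∀ e ∈ F', e ∉ G.edgeSet) then
    SimpleGraph.fromEdgeSet
      ((G.edgeSet \ (F : Set (Sym2 (Fin n)))) ∪ (F' : Set (Sym2 (Fin n))))
  else G

/-- The transition matrix of the switch chain on `Ω_d`: with probability `1/2` stay put;
otherwise choose a `4`-element vertex set `S` uniformly, then an ordered pair `(F, F')` of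
distinct perfect matchings of the complete graph on `S` uniformly, and attempt the switch. -/
noncomputable def switchMatrix (n : ℕ) (d : Fin n → ℕ) :
    Matrix (Omega n d) (Omega n d) ℝ := fun G G' =>
  (if G = G' then (1 / 2 : ℝ) else 0) +
    (1 / 2 : ℝ) * (1 / (((univ : Finset (Fin n)).powersetCard 4).card : ℝ)) *
      ∑ S ∈ (univ : Finset (Fin n)).powersetCard 4,
        (1 / ((matchingPairs S).card : ℝ)) *
          (((matchingPairs S).filter (fun p => switch G.1 p.1 p.2 = G'.1)).card : ℝ)

/-- Total variation distance between the distribution of the chain after `t` steps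
started at `G` and the uniform distribution on `Ω_d`. -/
noncomputable def tvDist (n : ℕ) (d : Fin n → ℕ) (t : ℕ) (G : Omega n d) : ℝ :=
  (1 / 2 : ℝ) *
    ∑ H : Omega n d, |(switchMatrix n d ^ t) G H - 1 / (Fintype.card (Omega n d) : ℝ)|

end Vale.Agent.Lib.P335
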