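import Vale.Agent.Lib.P335.Basic

/-!
A lower bound for the mixing time of the switch chain on the degree vector `(1,1,1,1,0,...,0)`:
only one `4`-set can ever host a successful switch, so the chain is very lazy.
-/

namespace Vale.Agent.Lib.P335

open Finset
open scoped Classical

/-- The degree vector `(1,1,1,1,0,...,0)`. -/
def d0 (n : ℕ) : Fin n → ℕ := fun v => if v.val < 4 then 1 else 0

/-- The set of the four vertices of degree one. -/
def S0 (n : ℕ) : Finset (Fin n) := (univ : Finset (Fin n)).filter (fun v => v.val < 4)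

theorem S0_card {n : ℕ} (hn : 4 ≤ n) : (S0 n).card = 4 := by
  unfold S0
  rw [Fin.card_filter_val_lt]
  exact min_eq_right hn

/-- A graph in which every vertex `x` with `x.val < 4` is joined to the vertex `m x.val`. -/
def mateGraph (n : ℕ) (m : ℕ → ℕ) (h1 : ∀ i, i < 4 → m i < 4)
    (h2 : ∀ i, i < 4 → m (m i) = i) (h3 : ∀ i, i < 4 → m i ≠ i) : SimpleGraph (Fin n) where
  Adj x y := x.val < 4 ∧ y.val = m x.val
  symm := ⟨fun x y h => ⟨by rw [h.2]; exact h1 _ h.1, by rw [h.2, h2 _ h.1]⟩⟩
  loopless := ⟨fun x h => h3 _ h.1 h.2.symm⟩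

theorem mateGraph_degree {n : ℕ} (hn : 4 ≤ n) (m : ℕ → ℕ) (h1 : ∀ i, i < 4 → m i < 4)
    (h2 : ∀ i, i < 4 → m (m i) = i) (h3 : ∀ i, i < 4 → m i ≠ i) (v : Fin n) :
    (mateGraph n m h1 h2 h3).degree v = d0 n v := by
  rw [← SimpleGraph.card_neighborFinset_eq_degree]
  unfold d0
  split_ifs with hv
  · have : (mateGraph n m h1 h2 h3).neighborFinset v
        = {(⟨m v.val, lt_of_lt_of_le (h1 _ hv) hn⟩ : Fin n)} := by
      ext w
      rw [SimpleGraph.mem_neighborFinset, Finset.mem_singleton, Fin.ext_iff]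
      constructor
      · intro h; exact h.2
      · intro h; exact ⟨hv, h⟩
    rw [this, Finset.card_singleton]
  · have : (mateGraph n m h1 h2 h3).neighborFinset v = ∅ := by
      ext w
      rw [SimpleGraph.mem_neighborFinset]
      constructor
      · intro h; exact absurd h.1 hv
      · intro h; simp at h
    rw [this, Finset.card_empty]

/-- The involution `0 ↔ 1`, `2 ↔ 3`. -/
def mA : ℕ → ℕ := fun i => if i = 0 then 1 else if i = 1 then 0 else if i = 2 then 3 else 2

/-- The involution `0 ↔ 2`, `1 ↔ 3`. -/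
def mB : ℕ → ℕ := fun i => if i = 0 then 2 else if i = 1 then 3 else if i = 2 then 0 else 1

theorem mA1 : ∀ i, i < 4 → mA i < 4 := by
  intro i hi; interval_cases i <;> simp [mA]

theorem mA2 : ∀ i, i < 4 → mA (mA i) = i := by
  intro i hi; interval_cases i <;> simp [mA]

theorem mA3 : ∀ i, i < 4 → mA i ≠ i := by
  intro i hi; interval_cases i <;> simp [mA]

theorem mB1 : ∀ i, i < 4 → mB i < 4 := by
  intro i hi; interval_cases i <;> simp [mB]

theorem mB2 : ∀ i, i < 4 → mB (mB i) = i := by
  intro i hi; interval_cases i <;> simp [mB]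

theorem mB3 : ∀ i, i < 4 → mB i ≠ i := by
  intro i hi; interval_cases i <;> simp [mB]

/-- The realization with edges `01` and `23`. -/
def GA {n : ℕ} (hn : 4 ≤ n) : Omega n (d0 n) :=
  ⟨mateGraph n mA mA1 mA2 mA3, mateGraph_degree hn mA mA1 mA2 mA3⟩

/-- The realization with edges `02` and `13`. -/
def GB {n : ℕ} (hn : 4 ≤ n) : Omega n (d0 n) :=
  ⟨mateGraph n mB mB1 mB2 mB3, mateGraph_degree hn mB mB1 mB2 mB3⟩

theorem GA_ne_GB {n : ℕ} (hn : 4 ≤ n) : GA hn ≠ GB hn := by
  intro h
  have h' : (GA hn).1.Adj ⟨0, by omega⟩ ⟨1, by omega⟩ := by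
    show (0 : ℕ) < 4 ∧ (1 : ℕ) = mA 0
    simp [mA]
  rw [h] at h'
  have h'' : (0 : ℕ) < 4 ∧ (1 : ℕ) = mB 0 := h'
  simp [mB] at h''

theorem card_Omega_d0 {n : ℕ} (hn : 4 ≤ n) : 2 ≤ Fintype.card (Omega n (d0 n)) := by
  have : 1 < Fintype.card (Omega n (d0 n)) :=
    Fintype.one_lt_card_iff.mpr ⟨GA hn, GB hn, GA_ne_GB hn⟩
  omega

/-- Every `4`-set has at least one ordered pair of distinct perfect matchings. -/
theorem matchingPairs_card_ne_zero {n : ℕ} (S : Finset (Fin n)) (hS : S.card = 4) :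
    (matchingPairs S).card ≠ 0 := by
  obtain ⟨a, b, c, e, hab, hac, hae, hbc, hbe, hce, rfl⟩ := Finset.card_eq_four.mp hS
  have key : ∀ (x y z w : Fin n), x ≠ y → x ≠ z → x ≠ w → y ≠ z → y ≠ w → z ≠ w →
      ({x, y, z, w} : Finset (Fin n)) = {a, b, c, e} →
      ({s(x, y), s(z, w)} : Finset (Sym2 (Fin n))) ∈ perfMatchings ({a, b, c, e} : Finset (Fin n)) := by
    intro x y z w hxy hxz hxw hyz hyw hzw hS'
    rw [← hS']
    unfold perfMatchings
    rw [Finset.mem_filter, Finset.mem_powerset]
    refine ⟨?_, ?_, ?_⟩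
    · intro f hf
      simp only [Finset.mem_insert, Finset.mem_singleton] at hf
      rcases hf with rfl | rfl
      · rw [Finset.mk_mem_sym2_iff]; simp
      · rw [Finset.mk_mem_sym2_iff]; simp
    · intro f hf
      simp only [Finset.mem_insert, Finset.mem_singleton] at hf
      rcases hf with rfl | rfl
      · simpa using hxy
      · simpa using hzw
    · intro v hv
      simp only [Finset.mem_insert, Finset.mem_singleton] at hv
      rcases hv with rfl | rfl | rfl | rfl
      · refine ⟨s(v, y), ⟨by simp, by simp⟩, ?_⟩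
        rintro f ⟨hf, hvf⟩
        simp only [Finset.mem_insert, Finset.mem_singleton] at hf
        rcases hf with rfl | rfl
        · rfl
        · simp only [Sym2.mem_iff] at hvf
          rcases hvf with h | h
          · exact absurd h hxz
          · exact absurd h hxw
      · refine ⟨s(x, v), ⟨by simp, by simp⟩, ?_⟩
        rintro f ⟨hf, hvf⟩
        simp only [Finset.mem_insert, Finset.mem_singleton] at hf
        rcases hf with rfl | rfl
        · rfl
        · simp only [Sym2.mem_iff] at hvf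
          rcases hvf with h | h
          · exact absurd h hyz
          · exact absurd h hyw
      · refine ⟨s(v, w), ⟨by simp, by simp⟩, ?_⟩
        rintro f ⟨hf, hvf⟩
        simp only [Finset.mem_insert, Finset.mem_singleton] at hf
        rcases hf with rfl | rfl
        · simp only [Sym2.mem_iff] at hvf
          rcases hvf with h | h
          · exact absurd h.symm hxz
          · exact absurd h.symm hyz
        · rfl
      · refine ⟨s(z, v), ⟨by simp, by simp⟩, ?_⟩
        rintro f ⟨hf, hvf⟩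
        simp only [Finset.mem_insert, Finset.mem_singleton] at hf
        rcases hf with rfl | rfl
        · simp only [Sym2.mem_iff] at hvf
          rcases hvf with h | h
          · exact absurd h.symm hxw
          · exact absurd h.symm hyw
        · rfl
  have h1 := key a b c e hab hac hae hbc hbe hce rfl
  have h2 := key a c b e hac hab hae hbc.symm hce hbe (by
    ext v; simp only [Finset.mem_insert, Finset.mem_singleton]; tauto)
  have hne : ({s(a, b), s(c, e)} : Finset (Sym2 (Fin n))) ≠ {s(a, c), s(b, e)} := by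
    intro h
    have : s(a, b) ∈ ({s(a, c), s(b, e)} : Finset (Sym2 (Fin n))) := by
      rw [← h]; simp
    simp only [Finset.mem_insert, Finset.mem_singleton, Sym2.eq_iff] at this
    rcases this with (⟨_, h⟩ | ⟨h, _⟩) | (⟨h, _⟩ | ⟨h, _⟩)
    · exact hbc h
    · exact hac h
    · exact hab h
    · exact hae h
  have hmem : (({s(a, b), s(c, e)} : Finset (Sym2 (Fin n))),
      ({s(a, c), s(b, e)} : Finset (Sym2 (Fin n)))) ∈ matchingPairs ({a, b, c, e} : Finset (Fin n)) := by
    unfold matchingPairs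
    rw [Finset.mem_filter, Finset.mem_product]
    exact ⟨⟨h1, h2⟩, hne⟩
  exact Finset.card_ne_zero_of_mem hmem

/-- On the degree vector `(1,1,1,1,0,...,0)` an attempted switch on a `4`-set other than
the set of the four vertices of degree one never changes the graph. -/
theorem switch_eq_self_of_ne_S0 {n : ℕ} (hn : 4 ≤ n) (G : Omega n (d0 n)) (S : Finset (Fin n))
    (hS : S.card = 4) (hne : S ≠ S0 n)
    (p : Finset (Sym2 (Fin n)) × Finset (Sym2 (Fin n))) (hp : p ∈ matchingPairs S) :
    switch G.1 p.1 p.2 = G.1 := by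
  by_contra hcon
  unfold switch at hcon
  split_ifs at hcon with hc
  · apply hne
    apply Finset.eq_of_subset_of_card_le
    · intro v hv
      unfold matchingPairs at hp
      rw [Finset.mem_filter, Finset.mem_product] at hp
      have hp1 := hp.1.1
      unfold perfMatchings at hp1
      rw [Finset.mem_filter] at hp1
      obtain ⟨f, ⟨hf, hvf⟩, _⟩ := hp1.2.2 v hv
      have hfG := hc.1 f hf
      obtain ⟨w, rfl⟩ := Sym2.mem_iff_exists.mp hvf
      rw [SimpleGraph.mem_edgeSet] at hfG
      have hdeg : 0 < G.1.degree v := (SimpleGraph.degree_pos_iff_exists_adj G.1 v).mpr ⟨w, hfG⟩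
      rw [G.2 v] at hdeg
      unfold d0 at hdeg
      unfold S0
      rw [Finset.mem_filter]
      refine ⟨Finset.mem_univ _, ?_⟩
      by_contra hv4
      rw [if_neg hv4] at hdeg
      exact lt_irrefl 0 hdeg
    · rw [S0_card hn, hS]
  · exact hcon rfl

/-- The chain on `(1,1,1,1,0,...,0)` stays put with probability at least `1 - 1/(2 C(n,4))`. -/
theorem switchMatrix_d0_diag {n : ℕ} (hn : 4 ≤ n) (G : Omega n (d0 n)) :
    1 - 1 / (2 * (n.choose 4 : ℝ)) ≤ switchMatrix n (d0 n) G G := by
  have hC : (((univ : Finset (Fin n)).powersetCard 4).card : ℝ) = (n.choose 4 : ℝ) := by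
    rw [Finset.card_powersetCard, Finset.card_univ, Fintype.card_fin]
  have hCpos : (0 : ℝ) < (n.choose 4 : ℝ) := by
    have : 0 < n.choose 4 := Nat.choose_pos hn
    exact_mod_cast this
  have hS0mem : S0 n ∈ (univ : Finset (Fin n)).powersetCard 4 := by
    rw [Finset.mem_powersetCard]
    exact ⟨Finset.subset_univ _, S0_card hn⟩
  have hterm : ∀ S ∈ ((univ : Finset (Fin n)).powersetCard 4).erase (S0 n),
      (1 / ((matchingPairs S).card : ℝ)) *
        (((matchingPairs S).filter (fun p => switch G.1 p.1 p.2 = G.1)).card : ℝ) = 1 := by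
    intro S hS
    rw [Finset.mem_erase, Finset.mem_powersetCard] at hS
    have hfil : (matchingPairs S).filter (fun p => switch G.1 p.1 p.2 = G.1) = matchingPairs S := by
      apply Finset.filter_true_of_mem
      intro p hp
      exact switch_eq_self_of_ne_S0 hn G S hS.2.2 hS.1 p hp
    rw [hfil]
    have hne : ((matchingPairs S).card : ℝ) ≠ 0 := by
      exact_mod_cast matchingPairs_card_ne_zero S hS.2.2
    field_simp
  have hsum : (n.choose 4 : ℝ) - 1 ≤ ∑ S ∈ (univ : Finset (Fin n)).powersetCard 4,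
      (1 / ((matchingPairs S).card : ℝ)) *
        (((matchingPairs S).filter (fun p => switch G.1 p.1 p.2 = G.1)).card : ℝ) := by
    rw [← Finset.add_sum_erase _ _ hS0mem, Finset.sum_congr rfl hterm]
    have h0 : (0 : ℝ) ≤ (1 / ((matchingPairs (S0 n)).card : ℝ)) *
        (((matchingPairs (S0 n)).filter (fun p => switch G.1 p.1 p.2 = G.1)).card : ℝ) :=
      mul_nonneg (div_nonneg (by norm_num) (Nat.cast_nonneg _)) (Nat.cast_nonneg _)
    have hcard : ((((univ : Finset (Fin n)).powersetCard 4).erase (S0 n)).card : ℝ)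
        = (n.choose 4 : ℝ) - 1 := by
      rw [Finset.card_erase_of_mem hS0mem, Finset.card_powersetCard, Finset.card_univ,
        Fintype.card_fin]
      have : 1 ≤ n.choose 4 := Nat.choose_pos hn
      push_cast [Nat.cast_sub this]
      ring
    simp only [Finset.sum_const, nsmul_eq_mul, mul_one]
    rw [hcard]
    linarith
  unfold switchMatrix
  rw [if_pos rfl, hC]
  have h2 : (1 / 2 : ℝ) * (1 / (n.choose 4 : ℝ)) * ((n.choose 4 : ℝ) - 1)
      ≤ (1 / 2 : ℝ) * (1 / (n.choose 4 : ℝ)) *
        ∑ S ∈ (univ : Finset (Fin n)).powersetCard 4,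
          (1 / ((matchingPairs S).card : ℝ)) *
            (((matchingPairs S).filter (fun p => switch G.1 p.1 p.2 = G.1)).card : ℝ) := by
    apply mul_le_mul_of_nonneg_left hsum
    positivity
  have h3 : (1 / 2 : ℝ) * (1 / (n.choose 4 : ℝ)) * ((n.choose 4 : ℝ) - 1)
      = 1 / 2 - 1 / (2 * (n.choose 4 : ℝ)) := by
    field_simp
  linarith

/-- If the chain on `(1,1,1,1,0,...,0)` is within total variation distance `1/4` of uniform
from every start after `t` steps, then `t` is at least `C(n,4)/2`. -/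
theorem mixing_lower_d0 {n : ℕ} (hn : 4 ≤ n) (t : ℕ)
    (h : ∀ G : Omega n (d0 n), tvDist n (d0 n) t G ≤ 1 / 4) :
    (n.choose 4 : ℝ) / 2 ≤ (t : ℝ) := by
  have hCpos : (0 : ℝ) < (n.choose 4 : ℝ) := by
    have : 0 < n.choose 4 := Nat.choose_pos hn
    exact_mod_cast this
  have hC1 : (1 : ℝ) ≤ (n.choose 4 : ℝ) := by
    have : 1 ≤ n.choose 4 := Nat.choose_pos hn
    exact_mod_cast this
  set G := GA hn with hG
  have hdiag := switchMatrix_d0_diag hn G
  have hx : (0 : ℝ) ≤ 1 - 1 / (2 * (n.choose 4 : ℝ)) := by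
    have : 1 / (2 * (n.choose 4 : ℝ)) ≤ 1 := by
      rw [div_le_one (by positivity)]
      linarith
    linarith
  have hpow : (1 - 1 / (2 * (n.choose 4 : ℝ))) ^ t ≤ (switchMatrix n (d0 n) ^ t) G G :=
    le_trans (pow_le_pow_left₀ hx hdiag t) (switchMatrix_pow_diag_ge t G)
  have hbern : 1 + (t : ℝ) * (-(1 / (2 * (n.choose 4 : ℝ))))
      ≤ (1 + (-(1 / (2 * (n.choose 4 : ℝ))))) ^ t := by
    apply one_add_mul_le_pow
    have : 1 / (2 * (n.choose 4 : ℝ)) ≤ 1 := by
      rw [div_le_one (by positivity)]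
      linarith
    linarith
  have hbern' : 1 - (t : ℝ) / (2 * (n.choose 4 : ℝ)) ≤ (1 - 1 / (2 * (n.choose 4 : ℝ))) ^ t := by
    have e1 : 1 + (t : ℝ) * (-(1 / (2 * (n.choose 4 : ℝ)))) = 1 - (t : ℝ) / (2 * (n.choose 4 : ℝ)) := by
      ring
    have e2 : (1 + (-(1 / (2 * (n.choose 4 : ℝ))))) = 1 - 1 / (2 * (n.choose 4 : ℝ)) := by ring
    rw [e1, e2] at hbern
    exact hbern
  have htv := tvDist_ge t G
  have hN : (1 : ℝ) / (Fintype.card (Omega n (d0 n)) : ℝ) ≤ 1 / 2 := by
    have h2 : (2 : ℝ) ≤ (Fintype.card (Omega n (d0 n)) : ℝ) := by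
      exact_mod_cast card_Omega_d0 hn
    rw [div_le_div_iff₀ (by linarith) (by norm_num)]
    linarith
  have hfin : 1 - (t : ℝ) / (2 * (n.choose 4 : ℝ)) - 1 / 2 ≤ 1 / 4 := by
    have := h G
    linarith
  have hfin2 : (1 : ℝ) / 4 ≤ (t : ℝ) / (2 * (n.choose 4 : ℝ)) := by linarith
  rw [le_div_iff₀ (by positivity)] at hfin2
  linarith

end Vale.Agent.Lib.P335
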